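import Vale.Agent.Lib.P090.Retract

namespace Vale.Agent.Results.P090.NetBAP

open Vale.Agent.Lib.P090

/-- Let `X` be a real normed space with the `lam`-bounded approximation property and let `N ⊆ X`
be a net: `θ`-separated and `δ`-dense.  Then the Lipschitz-free space `F(N)` (for any base point)
has the `(2 lam + 1 + 8 δ / θ)`-bounded approximation property. -/
theorem result {X : Type*} [NormedAddCommGroup X] [NormedSpace ℝ X]
    {lam θ δ : ℝ} (hX : HasBAP lam X) (hθ : 0 < θ) (hδ : 0 ≤ δ)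
    (N : Set X) (o : N)
    (hsep : ∀ x ∈ N, ∀ y ∈ N, x ≠ y → θ ≤ ‖x - y‖)
    (hdense : ∀ u : X, ∃ x ∈ N, ‖u - x‖ ≤ δ) :
    HasBAP (2 * lam + 1 + 8 * δ / θ) (freeSpace N o) :=
  hasBAP_of_net hX hθ hδ N o hsep hdense

end Vale.Agent.Results.P090.NetBAP
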