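import Vale.Agent.Lib.P090.Retract

namespace Vale.Agent.Results.P090.RetractBAP

open Vale.Agent.Lib.P090

/-- Let `M` be a uniformly discrete metric space which is a coarse Lipschitz retract of a real
normed space `X` with the `lam`-bounded approximation property: there are maps `i : M → X` and
`p : X → M` with `‖i x - i y‖ ≤ L d(x,y)`, `d(p u, p v) ≤ L' ‖u - v‖ + c₁` and
`d(p (i x), x) ≤ c₂`.  Then `F(M)` has the bounded approximation property with the explicit
constant `2 L L' lam + 1 + (3 c₁ + 2 c₂) / θ`. -/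
theorem result {M : Type*} [MetricSpace M] (o : M)
    {X : Type*} [NormedAddCommGroup X] [NormedSpace ℝ X]
    {lam θ L L' c₁ c₂ : ℝ} (hX : HasBAP lam X)
    (hθ : 0 < θ) (hsep : ∀ x y : M, x ≠ y → θ ≤ dist x y)
    (hL : 0 ≤ L) (hL' : 0 ≤ L') (hc₁ : 0 ≤ c₁) (hc₂ : 0 ≤ c₂)
    (i : M → X) (p : X → M)
    (hi : ∀ x y, ‖i x - i y‖ ≤ L * dist x y)
    (hp : ∀ u v, dist (p u) (p v) ≤ L' * ‖u - v‖ + c₁)
    (hret : ∀ x, dist (p (i x)) x ≤ c₂) :
    HasBAP (2 * L * L' * lam + 1 + (3 * c₁ + 2 * c₂) / θ) (freeSpace M o) :=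
  hasBAP_of_coarse_retract hX hθ hsep hL hL' hc₁ hc₂ i p hi hp hret

end Vale.Agent.Results.P090.RetractBAP
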